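import Crest.Agent.X212.Pat85.Mov
import Crest.Agent.X212.Tm38.Qt
import Crest.Agent.X212.Clc51.Gen
import Crest.Agent.X212.Clc51.Main
import Crest.Agent.X212.Ksc68.Hyp
import Crest.Agent.X212.Ksc68.Xi
import Crest.Agent.X212.Cut31.Fr
import Crest.Agent.X212.Ksc68.Abs
import Crest.Agent.X212.Ksc68.Bd
import Crest.Agent.X212.Ksc68.Job
import Crest.Agent.X212.Cut31.Pth
import Crest.Agent.X212.Tmc7.Opn
import Crest.Agent.X212.Cut31.Gs
import Crest.Agent.X212.Ksc68.Main
import Crest.Agent.X212.Kg34.Fr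
import Crest.Agent.X212.Kg34.Main
import Crest.Agent.X212.Sw21.KxA
import Crest.Agent.X212.Wl34.On
import Crest.Agent.X212.Taf6.TkA
import Crest.Agent.X212.Taf6.Tak
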